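import Vale.Agent.P356.Reduction

/-!
The area-law conjecture is equivalent to its version with qubits and an error `o(L²)`, and to
its version with range five and an error `o(L²)`.
-/

namespace Vale.Agent.Results.P356.AreaLawAmplification

open Vale.Agent.P356

theorem result :
    (AreaLaw ↔ ∀ (R : ℕ) (Δ : ℝ), 0 < Δ → WeakAreaLawAt 2 R 1 Δ) ∧
      (AreaLaw ↔ ∀ (Q : ℕ) (Δ : ℝ), 2 ≤ Q → 0 < Δ → WeakAreaLawAt Q 5 1 Δ) :=
  ⟨areaLaw_iff_qubit, areaLaw_iff_range⟩

end Vale.Agent.Results.P356.AreaLawAmplification
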