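import Vale.Agent.P356.AreaLawOneSided

/-!
Area law on the square lattice, for every region, when the energy inside the region
alone is conserved (in particular for all commuting Hamiltonians, frustrated or not).
-/

namespace Vale.Agent.Results.P356.ConservedBulkAreaLaw

open Matrix Vale.Agent.P356

theorem result (q R : ℕ) (hq : 2 ≤ q) :
    ∃ C : ℝ, ∀ (L : ℕ) (h : Finset (Site L) → Op q L) (E Δ : ℝ) (Ω : Conf q L → ℂ)
      (A : Finset (Site L)),
      (∀ X, (h X).IsHermitian) → (∀ X, ActsOn X (h X)) →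
      (∀ X, h X ≠ 0 → ∀ x ∈ X, ∀ y ∈ X, dist1 x y ≤ R) → h ∅ = 0 →
      0 < Δ → ∑ σ, Complex.normSq (Ω σ) = 1 →
      hamOn h Finset.univ *ᵥ Ω = (E : ℂ) • Ω →
      (∀ v : Conf q L → ℂ, star Ω ⬝ᵥ v = 0 →
        Δ * ∑ σ, Complex.normSq (v σ) ≤
          (star v ⬝ᵥ (hamOn h Finset.univ *ᵥ v)).re - E * ∑ σ, Complex.normSq (v σ)) →
      Commute (hamOn h Finset.univ) (hamOn h A) →
      entropy A Ω ≤ C * ((edgeBoundary A).card : ℝ) := by
  refine ⟨((2 * R + 1) ^ 2 : ℕ) * Real.log q, fun L h E Δ Ω A h1 h2 h3 h4 h5 h6 h7 h8 h9 => ?_⟩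
  have hr := (rank_ground_le_one_sided R h E Ω Δ A h1 h2 h3 h4 h5 h6 h7 h8 h9).trans
    (Nat.pow_le_pow_right (by omega) (card_layer_le R A))
  refine (entropy_le_log_rank A Ω h6).trans ?_
  have hq1 : (1 : ℝ) ≤ (q : ℝ) := by exact_mod_cast (by omega : 1 ≤ q)
  rcases Nat.eq_zero_or_pos (reshape A Ω).rank with h0 | h0
  · rw [h0, Nat.cast_zero, Real.log_zero]
    have := Real.log_nonneg hq1
    positivity
  · have hr' : ((reshape A Ω).rank : ℝ) ≤
        (q : ℝ) ^ ((2 * R + 1) ^ 2 * (edgeBoundary A).card) := by exact_mod_cast hr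
    refine (Real.log_le_log (by exact_mod_cast h0) hr').trans ?_
    rw [Real.log_pow]
    push_cast
    linarith

end Vale.Agent.Results.P356.ConservedBulkAreaLaw
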